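import Vale.Agent.P366.H208.CH.Ident

/-! The divergence of the flux field for a graph metric and an arbitrary tensor `K = u A + M`. -/

open MeasureTheory Metric Filter Topology Set
open scoped ContDiff ENNReal

noncomputable section
namespace Vale.Agent.H45G
open Vale.Agent.P366.Stmt
open Vale.Agent.P366.T2 (HP)

variable {n : ℕ} {f u : E n → ℝ} {K : Field n}

lemma smooth_Xf (hf : Smooth f) (hu : Smooth u) {P : Field n}
    (hP : ∀ i j, Smooth fun x => P x i j) (i : Fin n) : Smooth (Xf f u P i) := by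
  have hpf : ∀ i, Smooth (pf f P i) := fun i =>
    ContDiff.sum fun j _ => ContDiff.mul (hP i j) (smooth_pd hf j)
  unfold Xf Yf qp
  refine ContDiff.mul (ContDiff.neg (ContDiff.mul hu (smooth_w hf))) (ContDiff.sub (hpf i) ?_)
  exact ContDiff.mul (ContDiff.mul (smooth_pd hf i) (ContDiff.sum fun j _ =>
    ContDiff.mul (smooth_pd hf j) (hpf j))) ((smooth_W2 hf).inv fun x => W2_ne f x)

lemma IP_add {P Q R : Field n} {x : E n} (h : ∀ i j, P x i j = Q x i j + R x i j) :
    IP f P x = IP f Q x + IP f R x := by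
  unfold IP
  rw [← Finset.sum_add_distrib]
  refine Finset.sum_congr rfl fun i _ => ?_
  rw [← Finset.sum_add_distrib]
  refine Finset.sum_congr rfl fun k _ => ?_
  rw [← mul_add, ← Finset.sum_add_distrib]
  congr 1
  refine Finset.sum_congr rfl fun j _ => ?_
  rw [← Finset.sum_add_distrib]
  exact Finset.sum_congr rfl fun l _ => by rw [h]; ring

/-- **The divergence identity.** -/
theorem div_Zf (hf : Smooth f) (hu : Smooth u) (hK : ∀ i j, Smooth fun x => K x i j)
    {x : E n} (hs : ∀ i j, K x i j = K x j i) :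
    ∑ i, pd i (Zf f u K i) x = 2 * mu (gM f) K x -
      2 * (u x * (√(W2 f x))⁻¹ * ∑ j, pd j f x * mom (gM f) K j x) -
      (tr (gM f) (Mf f u K) x ^ 2 - normSq (gM f) (Mf f u K) x) -
      2 * ((√(W2 f x))⁻¹ * ∑ i, pd i u x * mv f (Mf f u K) i x) := by
  have hPs := smooth_momT hf hK
  have hW := W2_pos f x
  have hww : √(W2 f x) ^ 2 = W2 f x := Real.sq_sqrt hW.le
  have hw : 0 < √(W2 f x) := Real.sqrt_pos.2 hW
  have hWn := W2_ne f x
  have hd : ∀ i, pd i (Zf f u K i) x = -(2 * u x) * (pd i u x * Vf f i x) +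
      (1 - u x * u x) * pd i (Vf f i) x + 2 * pd i (Xf f u (momT (gM f) K) i) x := by
    intro i
    have h0 : Zf f u K i = fun y => (1 - u y * u y) * Vf f i y +
        2 * Xf f u (momT (gM f) K) i y := funext fun y => Zf_eq f u K i y
    have h1 : HP i (fun y => (1 - u y * u y) * Vf f i y +
        2 * Xf f u (momT (gM f) K) i y) _ x :=
      (((HP.const i 1 x).sub ((hp hu i x).mul (hp hu i x))).mul (hp (smooth_Vf hf i) i x)).add
        ((hp (smooth_Xf hf hu hPs i) i x).const_mul 2)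
    rw [h0, h1.pd]
    ring
  simp only [hd, Finset.sum_add_distrib, ← Finset.mul_sum]
  rw [div_Vf hf, div_Xf hf hu hPs (symm_momT hs)]
  -- the pieces
  have h1 : ∑ i, pd i u x * Yf f (momT (gM f) K) i x =
      -(sg f u x * W2 f x) * (∑ i, pd i u x * Vf f i x) +
        ∑ i, pd i u x * mv f (Mf f u K) i x := by
    rw [Finset.mul_sum, ← Finset.sum_add_distrib]
    exact Finset.sum_congr rfl fun i _ => by rw [Yf_add]; ring
  have h2 : IP f (momT (gM f) K) x = -(sg f u x * W2 f x * Sc f x) +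
      (IP f (Mf f u K) x - tr (gM f) (Mf f u K) x * H45G.hf f x) := by
    rw [IP_add (momT_add f u K x), IP_kS hf, IP_momT_gen hf]
  have h3 := normSq_add f (sg f u) K (Mf f u K) x (Mf_add f u K x)
  have h4 : tr (gM f) (kS f (sg f u)) x = sg f u x * H45G.hf f x := tr_gM f (sg f u) x
  have h5 := mu_gM hf (sg f u) x
  have h6 : tr (gM f) (kS f (sg f u)) x ^ 2 - normSq (gM f) (kS f (sg f u)) x =
      sg f u x ^ 2 * W2 f x * Sc f x := by
    unfold mu at h5
    rw [scal_gM hf] at h5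
    linarith
  have h7 : mu (gM f) K x = (Sc f x + tr (gM f) K x ^ 2 - normSq (gM f) K x) / 2 := by
    unfold mu; rw [scal_gM hf]
  have h8 := tr_add f u K x
  have h9 := sg_sq f u x
  have h10 : u x * (√(W2 f x))⁻¹ = sg f u x := rfl
  have h11 : (√(W2 f x))⁻¹ * (sg f u x * W2 f x) = u x := by
    unfold sg
    nth_rewrite 3 [← hww]
    field_simp
  rw [h10] at h9 ⊢
  unfold mom
  rw [h1, h2, h7, h8, h3]
  generalize (∑ i, pd i u x * Vf f i x) = uV
  generalize (∑ i, pd i u x * mv f (Mf f u K) i x) = um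
  generalize (∑ j, pd j f x * ∑ i, ∑ k, up (gM f) i k x *
    (pd k (fun y => momT (gM f) K y i j) x -
        ∑ l, (chr (gM f) l k i x * momT (gM f) K x l j +
          chr (gM f) l k j x * momT (gM f) K x i l))) = fJ
  rw [h4] at h6 ⊢
  generalize normSq (gM f) (kS f (sg f u)) x = N0 at *
  generalize normSq (gM f) (Mf f u K) x = NM at *
  generalize tr (gM f) (Mf f u K) x = tM at *
  generalize IP f (Mf f u K) x = iM at *
  linear_combination (2 * uV) * h11 - h6 + Sc f x * h9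

/-- `u W⁻¹ J(∂f) ≤ |u ∂f| |J|`. -/
lemma J_le (f u : E n → ℝ) (J : Fin n → E n → ℝ) (x : E n) :
    u x * (√(W2 f x))⁻¹ * (∑ j, pd j f x * J j x) ≤
      |u x| * √(∑ i, pd i f x ^ 2) * covNorm (gM f) J x := by
  have hW := W2_pos f x
  have hww : √(W2 f x) ^ 2 = W2 f x := Real.sq_sqrt hW.le
  have hcs := cs f (fun j => J j x) x
  have hd : ∑ i, pd i f x ^ 2 = W2 f x - 1 := by unfold W2; ring
  have hd0 : 0 ≤ W2 f x - 1 := by
    rw [← hd]
    exact Finset.sum_nonneg fun i _ => sq_nonneg _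
  obtain ⟨q, hq⟩ : ∃ q, q = ∑ i, ∑ j, up (gM f) i j x * J i x * J j x := ⟨_, rfl⟩
  have hcov : covNorm (gM f) J x = √q := by rw [hq]; rfl
  rw [← hq] at hcs
  have h0 : 0 ≤ |u x| * √(W2 f x - 1) * √q :=
    mul_nonneg (mul_nonneg (abs_nonneg _) (Real.sqrt_nonneg _)) (Real.sqrt_nonneg _)
  rw [hd, hcov]
  rcases le_or_gt 0 q with h1 | h1
  · refine (abs_le_of_sq_le_sq' ?_ h0).2
    have e1 : (u x * (√(W2 f x))⁻¹ * (∑ j, pd j f x * J j x)) ^ 2 =
        u x ^ 2 * (W2 f x)⁻¹ * (∑ j, pd j f x * J j x) ^ 2 := by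
      rw [mul_pow, mul_pow, inv_pow, hww]
    have e2 : u x ^ 2 * (W2 f x)⁻¹ * (∑ j, pd j f x * J j x) ^ 2 ≤
        u x ^ 2 * (W2 f x)⁻¹ * (W2 f x * (W2 f x - 1) * q) :=
      mul_le_mul_of_nonneg_left hcs (by positivity)
    have e3 : u x ^ 2 * (W2 f x)⁻¹ * (W2 f x * (W2 f x - 1) * q) =
        (|u x| * √(W2 f x - 1) * √q) ^ 2 := by
      rw [mul_pow, mul_pow, sq_abs, Real.sq_sqrt hd0, Real.sq_sqrt h1]
      field_simp
    rw [e1]
    exact e2.trans e3.le
  · have h2 : (∑ i, pd i f x * J i x) ^ 2 ≤ 0 :=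
      hcs.trans (mul_nonpos_of_nonneg_of_nonpos (mul_nonneg hW.le hd0) h1.le)
    have h3 : ∑ i, pd i f x * J i x = 0 :=
      pow_eq_zero_iff two_ne_zero |>.1 (le_antisymm h2 (sq_nonneg _))
    rw [h3, mul_zero]
    exact h0

/-- **The pointwise inequality.** -/
theorem div_Zf_nonneg (hf : Smooth f) (hu : Smooth u) (hK : ∀ i j, Smooth fun x => K x i j)
    {x : E n} (hs : ∀ i j, K x i j = K x j i)
    (h : tr (gM f) (Mf f u K) x ^ 2 - normSq (gM f) (Mf f u K) x +
      2 * ((√(W2 f x))⁻¹ * ∑ i, pd i u x * mv f (Mf f u K) i x) ≤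
      2 * (mu (gM f) K x - |u x| * √(∑ i, pd i f x ^ 2) *
        covNorm (gM f) (mom (gM f) K) x)) :
    0 ≤ ∑ i, pd i (Zf f u K i) x := by
  rw [div_Zf hf hu hK hs]
  have h1 := J_le f u (mom (gM f) K) x
  linarith

end Vale.Agent.H45G
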