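import Vale.Agent.P366.H45.G15

/-! The divergence identity for a graph metric, an arbitrary function `u` and an arbitrary tensor
`K = u A + M`. -/

open MeasureTheory Metric Filter Topology Set
open scoped ContDiff ENNReal

noncomputable section
namespace Vale.Agent.H45G
open Vale.Agent.P366.Stmt
open Vale.Agent.P366.T2 (HP)

variable {n : ℕ}

/-- `M(∂f) - (tr M) ∂f`, Euclidean contractions. -/
def mv (f : E n → ℝ) (M : Field n) (i : Fin n) (x : E n) : ℝ :=
  ∑ j, M x i j * pd j f x - te M x * pd i f x

/-- `M = K - u A`. -/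
def Mf (f u : E n → ℝ) (K : Field n) : Field n := fun x i j => K x i j - kS f (sg f u) x i j

lemma tr_gen (f : E n → ℝ) (M : Field n) (x : E n) :
    tr (gM f) M x = te M x - (∑ i, pd i f x * ∑ j, M x i j * pd j f x) / W2 f x := by
  unfold tr
  simp only [up_gM]
  rw [contr]
  unfold te
  congr 2
  refine Finset.sum_congr rfl fun i _ => ?_
  rw [Finset.mul_sum]
  exact Finset.sum_congr rfl fun j _ => by ring

lemma pf_gen (f : E n → ℝ) (M : Field n) (i : Fin n) (x : E n) :
    pf f (momT (gM f) M) i x = ∑ j, M x i j * pd j f x -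
      tr (gM f) M x * W2 f x * pd i f x := by
  unfold pf momT
  have : ∀ j, (M x i j - tr (gM f) M x * gM f x i j) * pd j f x =
      M x i j * pd j f x - tr (gM f) M x * (pd j f x * gM f x i j) := by
    intro j; ring
  simp only [this, Finset.sum_sub_distrib, ← Finset.mul_sum]
  rw [g_contr]
  ring

lemma Yf_gen (f : E n → ℝ) (M : Field n) (i : Fin n) (x : E n) :
    Yf f (momT (gM f) M) i x = mv f M i x := by
  have hq : qp f (momT (gM f) M) x = (∑ i, pd i f x * ∑ j, M x i j * pd j f x) -
      tr (gM f) M x * W2 f x * (W2 f x - 1) := by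
    have e : ∑ i, pd i f x * (tr (gM f) M x * W2 f x * pd i f x) =
        tr (gM f) M x * W2 f x * (W2 f x - 1) := by
      rw [← sum_sq, Finset.mul_sum]
      exact Finset.sum_congr rfl fun i _ => by ring
    unfold qp
    simp only [pf_gen, mul_sub (pd _ f x), Finset.sum_sub_distrib]
    rw [e]
  unfold Yf
  rw [pf_gen, hq, tr_gen]
  unfold mv
  have := W2_ne f x
  field_simp
  ring

lemma IP_gM {f : E n → ℝ} (hf : Smooth f) (x : E n) : IP f (gM f) x = H45G.hf f x := by
  have hs : ∀ i j, gM f x i j = gM f x j i := fun i j => by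
    unfold gM
    simp only [eq_comm (a := i)]
    ring
  have hpf : ∀ i, pf f (gM f) i x = W2 f x * pd i f x := fun i => by
    rw [← g_contr]
    unfold pf
    exact Finset.sum_congr rfl fun j _ => mul_comm _ _
  have h1 : ∑ i, Bf f (gM f) i i x = lap f x + Qf f x := by
    have : ∀ i, Bf f (gM f) i i x = pd i (pd i f) x + pd i f x * pv f i x := by
      intro i
      have e : ∀ j, gM f x i j * pd i (pd j f) x = (if i = j then pd i (pd j f) x else 0) +
          pd i f x * (pd j f x * pd i (pd j f) x) := by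
        intro j; unfold gM; split_ifs <;> ring
      unfold Bf
      simp only [e, Finset.sum_add_distrib, Finset.sum_ite_eq, Finset.mem_univ, if_true,
        ← Finset.mul_sum]
      rfl
    simp only [this, Finset.sum_add_distrib]
    rfl
  have h2 : ∑ i, pv f i x * pf f (gM f) i x = W2 f x * Qf f x := by
    unfold Qf
    rw [Finset.mul_sum]
    exact Finset.sum_congr rfl fun i _ => by rw [hpf]; ring
  have h3 : qp f (gM f) x = W2 f x * (W2 f x - 1) := by
    unfold qp
    rw [← sum_sq, Finset.mul_sum]
    exact Finset.sum_congr rfl fun i _ => by rw [hpf]; ring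
  rw [IP_eq hf hs, h1, h2, h3]
  unfold H45G.hf
  have := W2_ne f x
  field_simp
  ring

/-- The inner product of `π_M` and `D²f`. -/
lemma IP_momT_gen {f : E n → ℝ} (hf : Smooth f) (M : Field n) (x : E n) :
    IP f (momT (gM f) M) x = IP f M x - tr (gM f) M x * H45G.hf f x := by
  rw [← IP_gM hf]
  have e : ∀ i k, up (gM f) i k x * ∑ j, ∑ l, up (gM f) j l x *
      (momT (gM f) M x i j * pd k (pd l f) x) =
      up (gM f) i k x * (∑ j, ∑ l, up (gM f) j l x * (M x i j * pd k (pd l f) x)) -
      tr (gM f) M x * (up (gM f) i k x * (∑ j, ∑ l, up (gM f) j l x *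
        (gM f x i j * pd k (pd l f) x))) := by
    intro i k
    have e' : ∀ j l, up (gM f) j l x * (momT (gM f) M x i j * pd k (pd l f) x) =
        up (gM f) j l x * (M x i j * pd k (pd l f) x) -
        tr (gM f) M x * (up (gM f) j l x * (gM f x i j * pd k (pd l f) x)) := fun j l => by
      unfold momT
      ring
    simp only [e', Finset.sum_sub_distrib, ← Finset.mul_sum]
    ring
  unfold IP
  simp only [e, Finset.sum_sub_distrib, ← Finset.mul_sum]

/-- The flux field. -/
def Zf (f u : E n → ℝ) (K : Field n) (i : Fin n) (x : E n) : ℝ :=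
  Vf f i x + Xf f u (momT (gM f) K) i x - u x * (√(W2 f x))⁻¹ * mv f (Mf f u K) i x

section
variable {f u : E n → ℝ} {K : Field n}

lemma Mf_add (f u : E n → ℝ) (K : Field n) (x : E n) (i j : Fin n) :
    K x i j = kS f (sg f u) x i j + Mf f u K x i j := by
  unfold Mf; ring

lemma tr_add (f u : E n → ℝ) (K : Field n) (x : E n) :
    tr (gM f) K x = tr (gM f) (kS f (sg f u)) x + tr (gM f) (Mf f u K) x := by
  unfold tr
  simp only [← Finset.sum_add_distrib]
  exact Finset.sum_congr rfl fun i _ => Finset.sum_congr rfl fun j _ => by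
    rw [Mf_add f u K x i j]; ring

lemma momT_add (f u : E n → ℝ) (K : Field n) (x : E n) (i j : Fin n) :
    momT (gM f) K x i j = momT (gM f) (kS f (sg f u)) x i j +
      momT (gM f) (Mf f u K) x i j := by
  unfold momT
  rw [tr_add f u K, Mf_add f u K x i j]; ring

lemma pf_add (f u : E n → ℝ) (K : Field n) (x : E n) (i : Fin n) :
    pf f (momT (gM f) K) i x = pf f (momT (gM f) (kS f (sg f u))) i x +
      pf f (momT (gM f) (Mf f u K)) i x := by
  unfold pf
  rw [← Finset.sum_add_distrib]
  exact Finset.sum_congr rfl fun j _ => by rw [momT_add f u K]; ring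

lemma Yf_add (f u : E n → ℝ) (K : Field n) (x : E n) (i : Fin n) :
    Yf f (momT (gM f) K) i x = -(sg f u x * W2 f x * Vf f i x) + mv f (Mf f u K) i x := by
  rw [← Y_kS, ← Yf_gen]
  have h : qp f (momT (gM f) K) x = qp f (momT (gM f) (kS f (sg f u))) x +
      qp f (momT (gM f) (Mf f u K)) x := by
    unfold qp
    rw [← Finset.sum_add_distrib]
    exact Finset.sum_congr rfl fun j _ => by rw [pf_add f u K]; ring
  unfold Yf
  rw [pf_add f u K, h]
  ring

lemma sg_sq (f u : E n → ℝ) (x : E n) : u x * (√(W2 f x))⁻¹ * (sg f u x * W2 f x) = u x ^ 2 := by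
  have hW := W2_pos f x
  have hww : √(W2 f x) * √(W2 f x) = W2 f x := Real.mul_self_sqrt hW.le
  have hw : 0 < √(W2 f x) := Real.sqrt_pos.2 hW
  unfold sg
  nth_rewrite 3 [← hww]
  field_simp

/-- The flux field in the second form. -/
lemma Zf_eq (f u : E n → ℝ) (K : Field n) (i : Fin n) (x : E n) :
    Zf f u K i x = (1 - u x * u x) * Vf f i x + 2 * Xf f u (momT (gM f) K) i x := by
  have h1 := Yf_add f u K x i
  have h2 := sg_sq f u x
  unfold Zf Xf
  rw [h1]
  linear_combination (-Vf f i x) * h2

end

end Vale.Agent.H45G
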